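import Vale.Agent.P281.H485.U.Grad
import Vale.Agent.P281.H603.C.SpecB

/-!
# P281, T-Delta for the class C, block M6a (helper225): bounds of the first derivatives on slices
defined off a null set (copy of helper485's `H485/U/Grad.lean`)
-/

open Set Filter Metric MeasureTheory Matrix
open scoped Topology ContDiff ComplexConjugate ComplexOrder ENNReal NNReal

set_option linter.unusedSectionVars false

noncomputable section

namespace Vale.Agent.P281.H225

open Vale.Agent.P281 Vale.Agent.P281.H64.TK Vale.Agent.P272.K Vale.Agent.P281.H864.K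
  Vale.Agent.P281.H485.K Vale.Agent.P281.H485.U
open Vale.Agent.P281.H603.C (PolyInA TameInA TameBoundAStmt)

variable {d : ℕ}

section
variable {E Γ : Type} [TopologicalSpace E] [Group Γ] [MulAction Γ E]
  {S : Sheets d E Γ}

/-- slices are nice -/
theorem nice_polyA {q : Cm d → E} {A : Set (Cm d)} (hA : MeasurableSet A) (h : PolyInA S q A) :
    Nice S q A where
  meas := hA
  diff := by
    intro v hv i z hz γ he
    obtain ⟨θ, h1, h2, h3⟩ := h.hol v hv i z hz γ he
    refine ⟨θ, h1.differentiableAt.restrictScalars ℝ, h2, ?_, h3⟩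
    rw [det_fderiv_real h1.differentiableAt]
    positivity
  inj := h.inj

variable [ContinuousConstSMul Γ E]

/-- Change of variables, upper bound -/
theorem lint_polyA_le {q : Cm d → E} {A : Set (Cm d)} (hA : MeasurableSet A)
    (h : PolyInA S q A)
    (D : Fin S.N → Cm d → ℝ≥0∞) (G : Cm d → ℝ≥0∞)
    (hG : ∀ i, ∀ v ∈ A, ∀ z ∈ ball (0 : Cm d) 3, ∀ (γ : Γ) (θ : Cm d → Cm d),
      AnalyticAt ℂ θ v → θ v = z → (∀ᶠ u in 𝓝 v, q u = γ • S.σ i (θ u)) →
      G v ≤ ENNReal.ofReal (‖(H64.TK.jac θ v).det‖ ^ 2) * D i z) :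
    ∫⁻ v in A, G v ≤ ∑ i, ∫⁻ z in S.P i, D i z := by
  have hn := nice_polyA hA h
  have hle : ∀ i, ∀ v ∈ piece S q A i,
      G v ≤ ENNReal.ofReal |(jd S q i v).det| * D i (co S i (q v)) := by
    rintro i v ⟨hv, γ, z, hz, he⟩
    have hz3 := P_subset3 S i hz
    obtain ⟨θ, h1, h2, h3⟩ := h.hol v hv i z hz3 γ he.symm
    have h4 : (fun u => co S i (q u)) =ᶠ[𝓝 v] θ := by
      have h5 : ∀ᶠ u in 𝓝 v, θ u ∈ ball (0 : Cm d) 3 :=
        h1.continuousAt.eventually (isOpen_ball.mem_nhds (by rwa [h2]))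
      filter_upwards [h3, h5] with u a1 a2
      exact co_eq a2 a1.symm
    have h5 : |(jd S q i v).det| = ‖(H64.TK.jac θ v).det‖ ^ 2 := by
      unfold jd
      rw [h4.fderiv_eq, det_fderiv_real h1.differentiableAt, abs_of_nonneg (by positivity)]
    rw [h5, co_eq hz3 he]
    exact hG i v hv z hz3 γ θ h1 h2 h3
  have h1 : ∫⁻ v in A, G v = ∑ i, ∫⁻ v in piece S q A i, G v := by
    conv_lhs => rw [← piece_union S q A]
    rw [lintegral_iUnion (fun i => hn.meas_piece i) (piece_disj S q A), tsum_fintype]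
  rw [h1]
  refine Finset.sum_le_sum fun i _ => ?_
  have h2 : ∫⁻ v in piece S q A i, ENNReal.ofReal |(jd S q i v).det| * D i (co S i (q v)) =
      ∫⁻ z in (fun u => co S i (q u)) '' (piece S q A i), D i z := by
    rw [lintegral_image_eq_lintegral_abs_det_fderiv_mul volume (hn.meas_piece i)
      (fun v hv => (hn.hasFDerivAt hv).hasFDerivWithinAt) (hn.injOn i)]
  refine (setLIntegral_mono' (hn.meas_piece i) (hle i)).trans ?_
  rw [h2]
  refine lintegral_mono_set ?_
  rw [hn.image i]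
  exact fun z hz => hz.1

/-- The energy of a slice. -/
theorem lint_gradA {w : Fin S.N → Cm d → Matrix (Fin d) (Fin d) ℂ} (hw : Kah S w) {h : E → ℂ}
    {c : Γ → ℂ} (H : Add S h c) (hd' : 0 < d) {K : ℝ} (hK : 0 < K) {q : Cm d → E}
    {A : Set (Cm d)} (hA : MeasurableSet A) (hq : PolyInA S q A) (ht : TameInA S w K q A) :
    ∫⁻ v in A, ENNReal.ofReal ((K * d)⁻¹ ^ (d - 1) *
      ∑ k, ‖fderiv ℂ (fun u => h (q u)) v (Pi.single k 1)‖ ^ 2) ≤
      ENNReal.ofReal (S.herm w h h).re := by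
  have hd0 : (0 : ℝ) < d := by exact_mod_cast hd'
  rw [← lint_self S hw H]
  refine lint_polyA_le hA hq _ _ ?_
  intro i v hv z hz γ θ h1 h2 h3
  set J := H64.TK.jac θ v with hJ
  have hc : 0 < (K * d)⁻¹ := by positivity
  -- tameness
  have hT : ∀ ξ : Fin d → ℂ, (K * d)⁻¹ * ∑ k, ‖ξ k‖ ^ 2 ≤
      (star ξ ⬝ᵥ ((J.transpose * w i z * J.map conj) *ᵥ ξ)).re := by
    intro ξ
    have h4 := ht v hv i z hz γ θ h1 h2 h3 (star ξ)
    simp only [fderiv_jac] at h4
    rw [← hJ, form_eq] at h4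
    simp only [star_star] at h4
    have h5 := sum_sq_le (star ξ : Cm d)
    have h6 : ∀ k, ‖(star ξ : Fin d → ℂ) k‖ = ‖ξ k‖ := fun k => by
      rw [Pi.star_apply, norm_star]
    simp only [h6] at h5
    calc (K * d)⁻¹ * ∑ k, ‖ξ k‖ ^ 2 ≤ (K * d)⁻¹ * (d * ‖(star ξ : Cm d)‖ ^ 2) := by gcongr
      _ = K⁻¹ * ‖(star ξ : Cm d)‖ ^ 2 := by field_simp
      _ ≤ K⁻¹ * (K * (star ξ ⬝ᵥ ((J.transpose * w i z * J.map conj) *ᵥ ξ)).re) := by gcongr
      _ = _ := by field_simp
  -- invertibility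
  have hJ0 : J.det ≠ 0 := by
    intro h0
    have h4 : (J.map conj).det = 0 := by
      have : (J.map conj).det = conj J.det := (RingHom.map_det (starRingEnd ℂ) J).symm
      rw [this, h0, map_zero]
    obtain ⟨ξ, hξ, hξ'⟩ := Matrix.exists_mulVec_eq_zero_iff.2 h4
    have h5 := hT ξ
    rw [← Matrix.mulVec_mulVec, hξ', Matrix.mulVec_zero, dotProduct_zero, Complex.zero_re] at h5
    have h6 : 0 < ∑ k, ‖ξ k‖ ^ 2 := by
      obtain ⟨k, hk⟩ := Function.ne_iff.1 hξ
      refine Finset.sum_pos' (fun k _ => by positivity) ⟨k, Finset.mem_univ _, ?_⟩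
      have : 0 < ‖ξ k‖ := norm_pos_iff.2 hk
      positivity
    have h7 := mul_pos hc h6
    linarith
  have hpd : (J.transpose * w i z * J.map conj).PosDef := by
    have h4 := hw.posDef i z hz
    have h5 : (J.map conj)ᴴ = J.transpose := by
      ext a b
      simp [Matrix.conjTranspose_apply]
    have h6 : Function.Injective (J.map conj).mulVec := by
      rw [Matrix.mulVec_injective_iff_isUnit, Matrix.isUnit_iff_isUnit_det]
      have : (J.map conj).det = conj J.det := (RingHom.map_det (starRingEnd ℂ) J).symm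
      rw [this]
      exact isUnit_iff_ne_zero.2 ((map_ne_zero _).2 hJ0)
    have h7 := h4.conjTranspose_mul_mul_same h6
    rwa [h5] at h7
  have hgr := gr_change H hz h1.differentiableAt h2 h3
  have h8 := hd_ge hpd hc hT (gr S h i z ᵥ* J)
  rw [hd_change hJ0, Complex.re_ofReal_mul] at h8
  rw [← ENNReal.ofReal_mul (by positivity)]
  refine ENNReal.ofReal_le_ofReal (le_trans (le_of_eq ?_) h8)
  congr 1
  refine Finset.sum_congr rfl fun k _ => ?_
  rw [← congrFun hgr k]
  rfl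

end

/-- **M6a** -/
theorem tameBoundA : TameBoundAStmt := by
  intro d r K hd hr hK
  have hd0 : (0 : ℝ) < d := by exact_mod_cast hd
  obtain ⟨M, hM0, hM⟩ := H713.poly_sup (d := d) hr (Real.toNNReal ((K * d) ^ (d - 1)))
  refine ⟨d * M, ?_⟩
  intro E Γ _ _ _ _ _ _ S w h c hw H h1 q u v₀ A hA hAs hA0 hq ht hu hHq v hv
  have hae : (A : Set (Cm d)) =ᵐ[volume] (ball v₀ r : Set (Cm d)) :=
    Filter.EventuallyLE.antisymm (Eventually.of_forall fun _ hx => hAs hx) (ae_le_set.2 hA0)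
  have hfd : ∀ s ∈ A, fderiv ℂ u s = fderiv ℂ (fun t => h (q t)) s := fun s hs =>
    Filter.EventuallyEq.fderiv_eq (hHq s hs)
  have hk : ∀ k : Fin d, ‖fderiv ℂ u v (Pi.single k 1)‖ ≤ M := by
    intro k
    refine hM (fun v => fderiv ℂ u v (Pi.single k 1)) v₀ ?_ ?_ v hv
    · have h2 := (MF.analyticOnNhd_of_differentiableOn isOpen_ball hu).fderiv
      have h3 : DifferentiableOn ℂ (fderiv ℂ u) (ball v₀ r) :=
        h2.differentiableOn
      exact h3.clm_apply (differentiableOn_const _)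
    · have h2 := lint_gradA hw H hd hK hA.measurableSet hq ht
      rw [← setLIntegral_congr hae]
      have h3 : ∫⁻ v in A, ENNReal.ofReal ((K * d)⁻¹ ^ (d - 1)) *
          ‖fderiv ℂ u v (Pi.single k 1)‖ₑ ^ 2 ≤ 1 := by
        refine le_trans (setLIntegral_mono' hA.measurableSet fun v hv => ?_) (h2.trans ?_)
        · rw [hfd v hv, ← ofReal_norm, ← ENNReal.ofReal_pow (norm_nonneg _),
            ← ENNReal.ofReal_mul (by positivity)]
          refine ENNReal.ofReal_le_ofReal (mul_le_mul_of_nonneg_left ?_ (by positivity))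
          exact Finset.single_le_sum
            (f := fun k => ‖fderiv ℂ (fun u => h (q u)) v (Pi.single k 1)‖ ^ 2)
            (fun k _ => by positivity) (Finset.mem_univ k)
        · rw [← ENNReal.ofReal_one]
          exact ENNReal.ofReal_le_ofReal h1
      rw [lintegral_const_mul' _ _ ENNReal.ofReal_ne_top] at h3
      have h4 : ENNReal.ofReal ((K * d) ^ (d - 1)) * ENNReal.ofReal ((K * d)⁻¹ ^ (d - 1)) = 1 := by
        rw [← ENNReal.ofReal_mul (by positivity), inv_pow, mul_inv_cancel₀ (by positivity),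
          ENNReal.ofReal_one]
      calc ∫⁻ v in A, ‖fderiv ℂ u v (Pi.single k 1)‖ₑ ^ 2
          = ENNReal.ofReal ((K * d) ^ (d - 1)) * (ENNReal.ofReal ((K * d)⁻¹ ^ (d - 1)) *
            ∫⁻ v in A, ‖fderiv ℂ u v (Pi.single k 1)‖ₑ ^ 2) := by
            rw [← mul_assoc, h4, one_mul]
        _ ≤ ENNReal.ofReal ((K * d) ^ (d - 1)) * 1 := by gcongr
        _ = _ := by rw [mul_one]; rfl
  refine ContinuousLinearMap.opNorm_le_bound _ (by positivity) fun ξ => ?_
  rw [clm_eq_sum]
  calc ‖∑ l, fderiv ℂ u v (Pi.single l 1) * ξ l‖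
      ≤ ∑ l, ‖fderiv ℂ u v (Pi.single l 1) * ξ l‖ := norm_sum_le _ _
    _ ≤ ∑ _l : Fin d, M * ‖ξ‖ := by
        refine Finset.sum_le_sum fun l _ => ?_
        rw [norm_mul]
        exact mul_le_mul (hk l) (norm_le_pi_norm ξ l) (norm_nonneg _) hM0
    _ = d * M * ‖ξ‖ := by simp [mul_assoc]

end Vale.Agent.P281.H225
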